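import Vale.Agent.P229.Moulding

/-!
P229, local smooth isometric realization of surfaces in Euclidean three-space.

For arbitrary smooth functions `e, a, α, β` of one real variable, the quadratic form
`e(u)^2 du^2 + (α(v) + a(u) β(v))^2 dv^2` on the `(u,v)`-plane is induced, near every point `p`
with `e p.1 ≠ 0`, by a smooth map `Φ` into Euclidean three-space: the three inner products of the
partial derivatives `fderiv ℝ Φ q (1, 0)` and `fderiv ℝ Φ q (0, 1)` are the coefficients of the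
form at every point `q` of an open neighbourhood `U` of `p`.
-/

namespace Vale.Agent.Results.P229.MouldingMetrics

open scoped ContDiff

theorem result (e a α β : ℝ → ℝ) (he : ContDiff ℝ ∞ e) (ha : ContDiff ℝ ∞ a)
    (hα : ContDiff ℝ ∞ α) (hβ : ContDiff ℝ ∞ β) (p : ℝ × ℝ) (hp : e p.1 ≠ 0) :
    ∃ U : Set (ℝ × ℝ), IsOpen U ∧ p ∈ U ∧ ∃ Φ : ℝ × ℝ → EuclideanSpace ℝ (Fin 3),
      ContDiffOn ℝ ∞ Φ U ∧ ∀ q ∈ U,
        inner ℝ (fderiv ℝ Φ q (1, 0)) (fderiv ℝ Φ q (1, 0)) = e q.1 ^ 2 ∧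
        inner ℝ (fderiv ℝ Φ q (1, 0)) (fderiv ℝ Φ q (0, 1)) = 0 ∧
        inner ℝ (fderiv ℝ Φ q (0, 1)) (fderiv ℝ Φ q (0, 1))
          = (α q.2 + a q.1 * β q.2) ^ 2 :=
  Vale.Agent.P229.moulding e a α β he ha hα hβ p hp

end Vale.Agent.Results.P229.MouldingMetrics
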